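import Mathlib

/-!
# The statement of the Boone–Higman conjecture
-/

namespace Vale.Agent.P193

/-- Evaluation of a word in generators and their inverses. -/
def evalWord {G : Type*} [Group G] {n : ℕ} (g : Fin n → G) (w : List (Fin n × Bool)) : G :=
  (w.map fun a => if a.2 then g a.1 else (g a.1)⁻¹).prod

/-- `G` is finitely generated and one algorithm decides which words are trivial. -/
def HasDecidableWordProblem (G : Type*) [Group G] : Prop :=
  ∃ (n : ℕ) (g : Fin n → G), Subgroup.closure (Set.range g) = ⊤ ∧
    ComputablePred fun w : List (Fin n × Bool) => evalWord g w = 1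

/-- Q1. -/
def BooneHigmanConjecture : Prop :=
  ∀ (G : Type) [Group G], HasDecidableWordProblem G →
    ∃ (H : Type) (_ : Group H), Group.IsFinitelyPresented H ∧ IsSimpleGroup H ∧
      ∃ f : G →* H, Function.Injective f

end Vale.Agent.P193
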