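import Vale.Agent.P193.Assembly.Criterion
import Vale.Agent.P193.Alg.Defs
import Vale.Agent.P193.Pure.Defs
import Vale.Agent.P193.Target

/-!
# Assembly of the embedding into a finitely presented simple group
-/

namespace Vale.Agent.P193

open scoped TensorProduct
open Vale.Agent.P193.Assembly Vale.Agent.P193.Steinberg

/-- A Leavitt pair together with an endomorphism absorbing the identity. -/
structure Flasque (R : Type*) [Ring R] [Algebra (ZMod 2) R] where
  s₀ : R
  s₁ : R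
  t₀ : R
  t₁ : R
  t₀s₀ : t₀ * s₀ = 1
  t₁s₁ : t₁ * s₁ = 1
  t₀s₁ : t₀ * s₁ = 0
  t₁s₀ : t₁ * s₀ = 0
  sum_eq : s₀ * t₀ + s₁ * t₁ = 1
  phi : R →ₐ[ZMod 2] R
  phi_eq : ∀ a, phi a = s₀ * a * t₀ + s₁ * phi a * t₁

/-- Finitely many nonzero elements are cleared by one `x`. -/
def UniformlySimple (R : Type*) [Ring R] : Prop :=
  ∀ s : Finset R, (∀ a ∈ s, a ≠ 0) → ∃ x, ∀ a ∈ s, ∃ y, y * a * x = 1

/-- The centre is `{0, 1}`. -/
def TrivialCentre (R : Type*) [Ring R] : Prop :=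
  ∀ z : R, (∀ r, z * r = r * z) → z = 0 ∨ z = 1

variable {A B : Type*} [Ring A] [Ring B] [Algebra (ZMod 2) A] [Algebra (ZMod 2) B]

/-- The tensor product with any algebra inherits the flasque structure. -/
noncomputable def Flasque.tensorLeft (A : Type*) [Ring A] [Algebra (ZMod 2) A] (F : Flasque B) :
    Flasque (A ⊗[ZMod 2] B) where
  s₀ := 1 ⊗ₜ F.s₀
  s₁ := 1 ⊗ₜ F.s₁
  t₀ := 1 ⊗ₜ F.t₀
  t₁ := 1 ⊗ₜ F.t₁
  t₀s₀ := by rw [Algebra.TensorProduct.tmul_mul_tmul, F.t₀s₀, one_mul, Algebra.TensorProduct.one_def]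
  t₁s₁ := by rw [Algebra.TensorProduct.tmul_mul_tmul, F.t₁s₁, one_mul, Algebra.TensorProduct.one_def]
  t₀s₁ := by rw [Algebra.TensorProduct.tmul_mul_tmul, F.t₀s₁, TensorProduct.tmul_zero]
  t₁s₀ := by rw [Algebra.TensorProduct.tmul_mul_tmul, F.t₁s₀, TensorProduct.tmul_zero]
  sum_eq := by
    rw [Algebra.TensorProduct.tmul_mul_tmul, Algebra.TensorProduct.tmul_mul_tmul, one_mul,
      ← TensorProduct.tmul_add, F.sum_eq, Algebra.TensorProduct.one_def]
  phi := Algebra.TensorProduct.map (AlgHom.id (ZMod 2) A) F.phi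
  phi_eq a := by
    induction a using TensorProduct.induction_on with
    | zero => simp
    | tmul a b =>
      simp only [Algebra.TensorProduct.map_tmul, AlgHom.id_apply,
        Algebra.TensorProduct.tmul_mul_tmul, one_mul, mul_one, ← TensorProduct.tmul_add]
      rw [← F.phi_eq]
    | add u v hu hv =>
      rw [map_add]
      conv_lhs => rw [hu, hv]
      simp only [mul_add, add_mul]
      abel

/-- A quotient of a free algebra by finitely many relations is finitely presented. -/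
theorem Assembly.IsFPAlg.of_ringQuot {X : Type} [Finite X]
    (r : FreeAlgebra (ZMod 2) X → FreeAlgebra (ZMod 2) X → Prop)
    (hr : {p : FreeAlgebra (ZMod 2) X × FreeAlgebra (ZMod 2) X | r p.1 p.2}.Finite) :
    IsFPAlg (RingQuot r) := by
  refine ⟨X, inferInstance, RingQuot.mkAlgHom (ZMod 2) r,
    (fun p => p.1 - p.2) '' {p : FreeAlgebra (ZMod 2) X × FreeAlgebra (ZMod 2) X | r p.1 p.2},
    RingQuot.mkAlgHom_surjective _ _, hr.image _, fun a ha => ?_, ?_⟩
  · set I := TwoSidedIdeal.span ((fun p => p.1 - p.2) ''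
      {p : FreeAlgebra (ZMod 2) X × FreeAlgebra (ZMod 2) X | r p.1 p.2})
    let mk : FreeAlgebra (ZMod 2) X →ₐ[ZMod 2] I.ringCon.Quotient :=
      RingCon.mkₐ (ZMod 2) I.ringCon
    have hmk : ∀ b, mk b = 0 ↔ b ∈ I := fun b => quot_eq_zero_iff I b
    have hw : ∀ ⦃u v⦄, r u v → mk u = mk v := fun u v huv => by
      rw [← sub_eq_zero, ← map_sub, hmk]
      exact TwoSidedIdeal.subset_span ⟨(u, v), huv, rfl⟩
    rw [← hmk, ← RingQuot.liftAlgHom_mkAlgHom_apply (ZMod 2) mk hw a, ha, map_zero]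
  · rintro _ ⟨⟨u, v⟩, huv, rfl⟩
    rw [map_sub, sub_eq_zero]
    exact RingQuot.mkAlgHom_rel (ZMod 2) huv

theorem Setup.finite_rel (D : Setup) :
    {p : D.Free × D.Free | D.Rel p.1 p.2}.Finite := by
  let S : Set (D.Free × D.Free) :=
    (Set.range fun lm : Option D.Letter × Option D.Letter =>
      (FreeAlgebra.ι (ZMod 2) (Setup.Gen.y lm.1) * FreeAlgebra.ι (ZMod 2) (Setup.Gen.x lm.2),
        if lm.1 = lm.2 then (1 : D.Free) else 0)) ∪
    (Set.range fun ia : Fin D.k × D.Letter => (D.fg ia.1 * D.fx ia.2, D.fx ia.2 * D.fg ia.1)) ∪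
    (Set.range fun ia : Fin D.k × D.Letter => (D.fy ia.2 * D.fg ia.1, D.fg ia.1 * D.fy ia.2)) ∪
    (Set.range fun qa : D.Op × D.Letter => (D.fop qa.1 * D.fx qa.2, D.fcolumn qa.1 qa.2)) ∪
    (Set.range fun q : D.Op => (D.fop q * D.fp, D.fwrite q .plain * D.fp)) ∪
    {(D.fop D.head * D.fop .seed, 0)}
  have hS : S.Finite :=
    ((((((Set.finite_range _).union (Set.finite_range _)).union (Set.finite_range _)).union
      (Set.finite_range _)).union (Set.finite_range _))).union (Set.finite_singleton _)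
  refine hS.subset ?_
  rintro ⟨u, v⟩ h
  simp only [Set.mem_ofPred_eq] at h
  cases h with
  | orth l m => exact Or.inl (Or.inl (Or.inl (Or.inl (Or.inl ⟨(l, m), rfl⟩))))
  | gx i a => exact Or.inl (Or.inl (Or.inl (Or.inl (Or.inr ⟨(i, a), rfl⟩))))
  | gy i a => exact Or.inl (Or.inl (Or.inl (Or.inr ⟨(i, a), rfl⟩)))
  | column q a => exact Or.inl (Or.inl (Or.inr ⟨(q, a), rfl⟩))
  | tag q => exact Or.inl (Or.inr ⟨q, rfl⟩)
  | compress => exact Or.inr rfl

theorem Setup.isFPAlg (D : Setup) : IsFPAlg D.Alg :=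
  IsFPAlg.of_ringQuot D.Rel D.finite_rel

/-- What the stability module provides. -/
def GroupHalf : Prop :=
  ∀ (R : Type) [Ring R] [Algebra (ZMod 2) R], Nontrivial R → Flasque R → UniformlySimple R →
    TrivialCentre R →
      ∃ n, 5 ≤ n ∧ Function.Injective (toGL : St n R →* GLn n R) ∧
        ∀ g : GLn n R, g ∈ elemGroup n R

/-- What the module on pure systems provides. -/
def PureHalf : Prop :=
  ∀ (A B : Type) [Ring A] [Ring B] [Algebra (ZMod 2) A] [Algebra (ZMod 2) B],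
    Nontrivial A → Nontrivial B → PureSystem A → CoveredSystem B →
      Nontrivial (A ⊗[ZMod 2] B) ∧ UniformlySimple (A ⊗[ZMod 2] B) ∧
        TrivialCentre (A ⊗[ZMod 2] B)

/-- Two finitely presented algebras as in the plan give an embedding. -/
theorem embedsInFPSimple_of_pair (hG : GroupHalf) (hP : PureHalf) {K : Type} [Group K]
    {A B : Type} [Ring A] [Ring B] [Algebra (ZMod 2) A] [Algebra (ZMod 2) B] [Nontrivial A]
    [Nontrivial B] (hA : IsFPAlg A) (sA : PureSystem A) (hB : IsFPAlg B) (sB : CoveredSystem B)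
    (fB : Flasque B) (ι : K →* Aˣ) (hι : Function.Injective ι) : EmbedsInFPSimple K := by
  obtain ⟨hnt, hU, hZ⟩ := hP A B ‹_› ‹_› sA sB
  let F := fB.tensorLeft A
  obtain ⟨n, hn, hinj, hGL⟩ := hG (A ⊗[ZMod 2] B) hnt F hU hZ
  refine embedsInFPSimple_of_ring (hA.tensor hB).isFPRing hn hinj hGL (fun a ha => ?_)
    ⟨F.s₁, F.t₀, fun h => ?_, fun h => ?_, F.t₀s₁⟩ hZ
    ((Units.map (Algebra.TensorProduct.includeLeft : A →ₐ[ZMod 2] A ⊗[ZMod 2] B).toMonoidHom).comp ι)
    ?_
  · obtain ⟨x, hx⟩ := hU {a} (by simpa using ha)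
    obtain ⟨y, hy⟩ := hx a (Finset.mem_singleton_self a)
    exact ⟨y, x, hy⟩
  · exact one_ne_zero (F.t₁s₁.symm.trans (by rw [h, mul_zero]))
  · exact one_ne_zero (F.t₀s₀.symm.trans (by rw [h, zero_mul]))
  · intro u v huv
    refine hι (Units.ext ?_)
    have h1 := congrArg (fun w : (A ⊗[ZMod 2] B)ˣ => (w : A ⊗[ZMod 2] B)) huv
    exact Algebra.TensorProduct.includeLeft_injective (R := ZMod 2) (S := ZMod 2)
      (algebraMap (ZMod 2) B).injective h1

/-- The conjecture from the module outputs. -/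
theorem booneHigman_of_modules (hG : GroupHalf) (hP : PureHalf)
    (hsetup : ∀ (G : Type) [Group G], HasDecidableWordProblem G →
      ∃ (D : Setup) (i : G →* D.K), Function.Injective i)
    (hA : ∀ D : Setup, Nontrivial D.Alg ∧ Nonempty (PureSystem D.Alg) ∧
      ∃ ι : D.K →* (D.Alg)ˣ, Function.Injective ι)
    {B : Type} [Ring B] [Algebra (ZMod 2) B] [Nontrivial B] (hB : IsFPAlg B)
    (sB : CoveredSystem B) (fB : Flasque B) : BooneHigmanConjecture := by
  intro G _ hd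
  obtain ⟨D, i, hi⟩ := hsetup G hd
  obtain ⟨hnt, ⟨sA⟩, ι, hι⟩ := hA D
  have h := embedsInFPSimple_of_pair hG hP D.isFPAlg sA hB sB fB ι hι
  exact h.of_injective i hi

end Vale.Agent.P193
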