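import Mathlib

/-!
# Iterated sequential transducers as a machine model (interface)
-/

namespace Vale.Agent.P193

/-- A deterministic transducer that reads one letter and writes a nonempty word. -/
structure Transducer (C : Type) where
  State : Type
  [stateFintype : Fintype State]
  [stateDecEq : DecidableEq State]
  init : State
  rule : State → C → Option ((C × List C) × State)
  final : State → Bool

attribute [instance] Transducer.stateFintype Transducer.stateDecEq

namespace Transducer

variable {C : Type} (T : Transducer C)

/-- Run from a given state. -/
def runFrom : T.State → List C → Option (List C × T.State)
  | s, [] => some ([], s)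
  | s, c :: l =>
    (T.rule s c).bind fun r => (runFrom r.2 l).map fun o => (r.1.1 :: r.1.2 ++ o.1, o.2)

/-- One complete sweep; it fails unless it ends in a final state. -/
def eval (l : List C) : Option (List C) :=
  (T.runFrom T.init l).bind fun o => if T.final o.2 then some o.1 else none

/-- `n` sweeps. -/
def iter : ℕ → List C → Option (List C)
  | 0, l => some l
  | n + 1, l => (iter n l).bind T.eval

end Transducer

/-- A step transducer and an acceptor over a finite alphabet containing the input symbols. -/
structure Machine (At : Type) where
  C : Type
  [cFintype : Fintype C]
  [cDecEq : DecidableEq C]
  lb : C
  rb : C
  sym : At → C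
  step : Transducer C
  acc : Transducer C

attribute [instance] Machine.cFintype Machine.cDecEq

namespace Machine

variable {At : Type} (M : Machine At)

/-- The initial configuration of an input. -/
def start (t : List At) : List M.C := M.lb :: t.map M.sym ++ [M.rb]

/-- Some number of sweeps of `step`, followed by `acc`, succeeds. -/
def Accepts (t : List At) : Prop := ∃ n, (((M.step.iter n (M.start t)).bind M.acc.eval)).isSome

/-- The machine accepts exactly `D`. -/
def Recognizes (D : List At → Prop) : Prop := ∀ t, M.Accepts t ↔ D t

end Machine

end Vale.Agent.P193
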